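import Vale.Agent.P057SY.Plan
import Vale.Agent.P057PL.Gen

/-!
Alternating sums along local maps; components of a function on the faces.
-/

set_option linter.all false

open Matrix Finset
open Vale.Agent.P267.H775 Vale.Agent.P057G Vale.Agent.P057SY
open Vale.Agent.P057MA (On fce)
open Vale.Agent.P057PL (LA)

namespace Vale.Agent.P057DE

noncomputable section

variable {V ι κ : Type} [DecidableEq V] [Fintype ι] [DecidableEq ι] [Fintype κ] [DecidableEq κ]
variable {S' : MS V κ} {S : MS V ι} {Q : (κ → ℝ) → ι → ℝ} {φ θ : (ι → ℝ) → ℝ} {A B : Finset V}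
  {v : V}

theorem mem_fce {i : ι} : i ∈ fce S A ↔ S.fc i ⊆ A := by simp [fce]

theorem kz_kill (T : Finset V) (r : Finset ι) (x : ι → ℝ) :
    S.kz T (mix r 0 x) = mix r 0 (S.kz T x) := by
  funext i; simp only [MS.kz, mix]; split_ifs <;> rfl

theorem aff_const (r : Finset ι) (c : ℝ) : Aff r fun _ => c := fun y =>
  ⟨fun _ _ => by simp, fun _ _ => by simp⟩

theorem aff_coord (r : Finset ι) (j : ι) : Aff r fun x => x j := fun y =>
  ⟨fun _ _ => by simp only [mix]; split_ifs <;> simp,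
    fun _ _ => by simp only [mix]; split_ifs <;> simp⟩

theorem aff_add {r : Finset ι} (h1 : Aff r θ) (h2 : Aff r φ) : Aff r fun z => θ z + φ z := by
  have := h1.sub ((aff_const r 0).sub h2)
  simpa only [zero_sub, sub_neg_eq_add] using this

theorem aff_sum {r : Finset ι} {J : Type} (s : Finset J) {f : J → (ι → ℝ) → ℝ}
    (h : ∀ k ∈ s, Aff r (f k)) : Aff r fun z => ∑ k ∈ s, f k z := by
  simpa only [one_mul] using Aff.sum s (fun _ => 1) h

theorem alt_congr (p : ι → Prop) (hφ : ∀ x x', (∀ i, p i → x i = x' i) → φ x = φ x')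
    (A : Finset V) {x x' : ι → ℝ} (hx : ∀ i, p i → x i = x' i) : S.alt A φ x = S.alt A φ x' :=
  sum_congr rfl fun T _ => congrArg _ (hφ _ _ fun i hi => by
    simp only [MS.kz, mix]; split_ifs; exacts [rfl, hx i hi])

theorem alt_add (A : Finset V) (x : ι → ℝ) :
    S.alt A (fun z => θ z + φ z) x = S.alt A θ x + S.alt A φ x := by
  simp only [MS.alt, mul_add, sum_add_distrib]

theorem alt_sub (A : Finset V) (x : ι → ℝ) :
    S.alt A (fun z => θ z - φ z) x = S.alt A θ x - S.alt A φ x := by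
  simp only [MS.alt, mul_sub, sum_sub_distrib]

theorem alt_sum {J : Type} (s : Finset J) (f : J → (ι → ℝ) → ℝ) (A : Finset V) (x : ι → ℝ) :
    S.alt A (fun z => ∑ k ∈ s, f k z) x = ∑ k ∈ s, S.alt A (f k) x := by
  simp only [MS.alt, mul_sum]
  exact sum_comm

/-- the function does not see the vertex `v` -/
def Ind (S : MS V ι) (v : V) (φ : (ι → ℝ) → ℝ) : Prop := ∀ y, φ (mix (S.st v) 0 y) = φ y

theorem Ind.alt (h : Ind S v φ) (A : Finset V) : Ind S v (S.alt A φ) := fun y =>
  sum_congr rfl fun T _ => by rw [kz_kill, h]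

theorem Ind.zero (h : Ind S v φ) (hv : v ∈ A) (x : ι → ℝ) : S.alt A φ x = 0 := by
  rw [← insert_erase hv, MS.alt_insert (notMem_erase v A), h.alt, sub_self]

theorem ind_on (h : On (fce S A) φ) (hv : v ∉ A) : Ind S v φ := fun y =>
  h _ _ fun i hi => mix_neg _ _ fun k => hv (mem_fce.1 hi (S.mem_st.1 k))

theorem ind_kz (U : Finset V) (h : ∀ v ∈ U, Ind S v φ) (x : ι → ℝ) : φ (S.kz U x) = φ x := by
  induction U using Finset.induction_on with
  | empty => rw [MS.kz_empty]
  | insert v U hv ih =>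
    rw [MS.kz_insert, kz_kill, h v (mem_insert_self _ _),
      ih fun w hw => h w (mem_insert_of_mem hw)]

/-- the linear part of a local map over the vertices of `A` -/
def la (S' : MS V κ) (S : MS V ι) (A : Finset V) (Q : (κ → ℝ) → ι → ℝ) (y : κ → ℝ) (i : ι) : ℝ :=
  S'.alt (A ∩ S.fc i) (fun y => Q y i) y

theorem alt_comp (h : LA S' S Q) (A : Finset V) (hθ : ∀ v ∈ A, Aff (S.st v) θ) (y : κ → ℝ) :
    S'.alt A (fun y => θ (Q y)) y = S.alt A θ (la S' S A Q y) := by
  induction A using Finset.induction_on generalizing y with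
  | empty =>
    rw [MS.alt_empty, MS.alt_empty]
    congr 1
    funext i
    rw [la, empty_inter, MS.alt_empty]
  | insert v A hv ih =>
    have ih' := ih fun w hw => hθ w (mem_insert_of_mem hw)
    have l := MS.aff_alt (S := S) (hθ v (mem_insert_self _ _)) A (la S' S A Q y)
    have e1 : la S' S (insert v A) Q y = mix (S.st v)
        (la S' S A Q y - la S' S A Q (mix (S'.st v) 0 y)) (la S' S A Q y) := funext fun i => by
      by_cases k : v ∈ S.fc i
      · rw [mix_pos _ _ (S.mem_st.2 k), la, insert_inter_of_mem k,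
          MS.alt_insert fun e => hv (mem_inter.1 e).1]
        rfl
      · rw [mix_neg _ _ (mt S.mem_st.1 k), la, insert_inter_of_notMem k]
        rfl
    have e2 : mix (S.st v) (la S' S A Q (mix (S'.st v) 0 y)) (la S' S A Q y) =
        la S' S A Q (mix (S'.st v) 0 y) := funext fun i => by
      by_cases k : v ∈ S.fc i
      · exact mix_pos _ _ (S.mem_st.2 k)
      · rw [mix_neg _ _ (mt S.mem_st.1 k)]
        exact (Ind.alt (φ := fun y => Q y i) (fun y => h.out k 0 y) _ y).symm
    have e3 := (IsLinearMap.mk' _ l).map_sub (la S' S A Q y) (la S' S A Q (mix (S'.st v) 0 y))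
    simp only [IsLinearMap.mk'_apply, e2, mix_self] at e3
    rw [MS.alt_insert hv, MS.alt_insert hv, ih', ih', e1, mix_mix, e3]
    ring

variable [Fintype V]

theorem cmp_congr (p : ι → Prop) (hφ : ∀ x x', (∀ i, p i → x i = x' i) → φ x = φ x')
    {x x' : ι → ℝ} (hx : ∀ i, p i → S.fc i ⊆ A → x i = x' i) : cmp S A φ x = cmp S A φ x' :=
  alt_congr p hφ A fun i hi => by
    simp only [MS.kz, mix]
    split_ifs with k
    · rfl
    · exact hx i hi fun v hv => by
        by_contra c
        exact k (MS.mem_sts.2 ⟨v, Finset.mem_sdiff.2 ⟨mem_univ _, c⟩, hv⟩)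

theorem on_cmp (A : Finset V) (φ : (ι → ℝ) → ℝ) : On (fce S A) (cmp S A φ) := fun x x' hx =>
  cmp_congr (fun _ => True) (fun _ _ h => congrArg φ (funext fun i => h i trivial))
    fun i _ hi => hx i (mem_fce.2 hi)

theorem aff_cmp {r : Finset ι} (h : Aff r φ) (A : Finset V) : Aff r (cmp S A φ) :=
  (MS.aff_alt h A).kill _

theorem cmp_kill (h : ∀ y, φ (mix (S.st v) 0 y) = 0) (A : Finset V) (y : ι → ℝ) :
    cmp S A φ (mix (S.st v) 0 y) = 0 :=
  sum_eq_zero fun T _ => by rw [kz_kill, kz_kill, h, mul_zero]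

theorem lin_cmp (h : Aff (S.st v) φ) (hv : v ∈ A) : Lin (S.st v) (cmp S A φ) :=
  (aff_cmp h A).lin fun y => by rw [P057SY.cmp, kz_kill, (MS.lin_alt hv h).zero]

theorem alt_cmp (h : ∀ x, S.alt B φ x = 0) (A : Finset V) (x : ι → ℝ) :
    S.alt B (cmp S A φ) x = 0 := by
  refine (alt_sum A.powerset (fun T z => (-1) ^ T.card * φ (S.kz T (S.kz (univ \ A) z))) B x).trans
    (sum_eq_zero fun T _ => ?_)
  have := h (S.kz T (S.kz (univ \ A) x))
  have e : ∀ U, S.kz T (S.kz (univ \ A) (S.kz U x)) = S.kz U (S.kz T (S.kz (univ \ A) x)) :=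
    fun U => funext fun i => by simp only [MS.kz, mix]; split_ifs <;> rfl
  simp only [MS.alt, e] at this ⊢
  simp only [mul_left_comm _ ((-1 : ℝ) ^ T.card), ← mul_sum, this, mul_zero]

omit [Fintype V] in
theorem sum_alt (A : Finset V) (x : ι → ℝ) :
    ∑ B ∈ A.powerset, S.alt B φ (S.kz (A \ B) x) = φ x := by
  induction A using Finset.induction_on with
  | empty => simp [MS.alt_empty, MS.kz_empty]
  | insert v A hv ih =>
    rw [sum_powerset_insert hv, ← sum_add_distrib, ← ih]
    refine sum_congr rfl fun B hB => ?_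
    have k : v ∉ B := fun e => hv (mem_powerset.1 hB e)
    rw [insert_sdiff_of_notMem _ k, MS.kz_insert, kz_kill, MS.alt_insert k,
      insert_sdiff_insert, sdiff_insert_of_notMem hv]
    ring

theorem sum_cmp (h : On (fce S A) φ) (x : ι → ℝ) : ∑ B ∈ A.powerset, cmp S B φ x = φ x := by
  rw [← sum_alt (S := S) (φ := φ) A x]
  refine sum_congr rfl fun B _ => alt_congr (· ∈ fce S A) h B fun i hi => ?_
  have : i ∈ S.sts (univ \ B) ↔ i ∈ S.sts (A \ B) := by
    simp only [MS.mem_sts, Finset.mem_sdiff, mem_univ, true_and]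
    exact ⟨fun ⟨v, a, b⟩ => ⟨v, ⟨mem_fce.1 hi b, a⟩, b⟩, fun ⟨v, a, b⟩ => ⟨v, a.2, b⟩⟩
  simp only [MS.kz, mix, this]

end

end Vale.Agent.P057DE
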