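import Vale.Agent.P057DE.Siz
import Vale.Agent.P057SY.Alt
import Vale.Agent.P057PL.Pull

/-!
Demotion of the extra coordinates.
-/

set_option linter.all false

open Matrix Finset
open Vale.Agent.P267.H775 Vale.Agent.P057G Vale.Agent.P057SY Vale.Agent.P057PC Vale.Agent.P057TP
open Vale.Agent.P057MA (On fce Fm IntV)
open Vale.Agent.P057PL (LA none_fo some_fo)

namespace Vale.Agent.P057DE

noncomputable section

theorem num {s : ℕ} {Y : ℝ} (h : ((3 * s + 22 : ℕ) : ℝ) ≤ Y) :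
    2 ≤ Y * Y ^ (2 * s) ∧ Y * (2 + Y ^ (2 * s)) ≤ Y ^ (3 * s + 22) ∧
    2 * Real.exp Y + Real.exp (4 * (Y * Y ^ (2 * s))) ≤ Real.exp (Y ^ (3 * s + 22)) ∧
    (∀ b ≤ s, 8 * Real.exp Y + 2 * 4 ^ b * Real.exp (4 * (Y * Y ^ (2 * s))) ≤
      Real.exp (2 * Y ^ (2 * s + 2))) ∧
    ∀ (k : ℝ) (j : ℕ), 0 ≤ k → k ≤ Y → (j : ℝ) ≤ Y ^ s →
      Real.exp (4 + k * (2 * Y ^ (2 * s + 2)) + 4 * (k + 1) ^ 2) ^ j + 1 ≤
        Real.exp (Y ^ (3 * s + 22)) := by
  have y : 22 ≤ Y := le_trans (by push_cast; linarith [(Nat.cast_nonneg s : (0 : ℝ) ≤ s)]) h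
  have y1 : 1 ≤ Y := by linarith
  have pw : ∀ {a b : ℕ}, a ≤ b → Y ^ a ≤ Y ^ b := fun k => pow_le_pow_right₀ y1 k
  have n1 : 1 ≤ Y ^ (2 * s) := one_le_pow₀ y1
  obtain ⟨n, hn⟩ : ∃ n, n = Y ^ (2 * s) := ⟨_, rfl⟩
  obtain ⟨U, hU⟩ : ∃ U, U = Y ^ (2 * s + 2) := ⟨_, rfl⟩
  have u1 : U = Y * (Y * n) := by rw [hU, hn]; ring
  have u2 : Y * U ≤ Y ^ (3 * s + 22) := by
    rw [hU, ← pow_succ']; exact pw (by omega)
  rw [← hn] at n1 ⊢
  rw [← hU]
  have a1 : Y ≤ Y * n := le_mul_of_one_le_right (by linarith) n1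
  have a2 : 22 * (Y * n) ≤ U := u1 ▸ mul_le_mul_of_nonneg_right y (by linarith)
  have a3 : 22 * U ≤ Y * U := mul_le_mul_of_nonneg_right y (by linarith)
  have a4 : Real.exp Y ≤ Real.exp U := Real.exp_le_exp.2 (by linarith)
  have a5 : Real.exp (4 * (Y * n)) ≤ Real.exp U := Real.exp_le_exp.2 (by linarith)
  have a6 : ∀ b ≤ s, 8 * Real.exp Y + 2 * 4 ^ b * Real.exp (4 * (Y * n)) ≤ Real.exp (2 * U) := by
    intro b hb
    have b1 : (4 : ℝ) ^ b ≤ n := by
      rw [hn]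
      exact (pow_le_pow_left₀ (by norm_num) (by linarith) b).trans (pw (by omega))
    have b2 : n ≤ Y * n := le_mul_of_one_le_left (by linarith) y1
    have b3 := Real.add_one_le_exp U
    have b4 := mul_le_mul b1 a5 (Real.exp_pos _).le (by linarith)
    have b5 := mul_le_mul_of_nonneg_right (show 8 + 2 * n ≤ Real.exp U by linarith)
      (Real.exp_pos U).le
    rw [two_mul U, Real.exp_add]
    linarith
  refine ⟨by linarith, by linarith, ?_, a6, fun k j k0 k1 hj => ?_⟩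
  · have := a6 0 (Nat.zero_le _)
    have b := Real.exp_le_exp.2 (show 2 * U ≤ Y ^ (3 * s + 22) by linarith)
    linarith [Real.exp_pos Y, Real.exp_pos (4 * (Y * n))]
  · have b1 : k * U ≤ Y * U := mul_le_mul_of_nonneg_right k1 (by linarith)
    have b2 : (k + 1) ^ 2 ≤ (2 * Y) ^ 2 := pow_le_pow_left₀ (by linarith) (by linarith) 2
    have b3 : Y * Y ≤ Y * U := mul_le_mul_of_nonneg_left (by linarith) (by linarith)
    have b4 : 22 * (Y * U) ≤ Y * (Y * U) := mul_le_mul_of_nonneg_right y (by linarith)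
    have b5 : 4 + k * (2 * U) + 4 * (k + 1) ^ 2 ≤ Y * (Y * U) := by nlinarith
    have b6 : Y ^ s * (Y * (Y * U)) = Y ^ (3 * s + 4) := by rw [hU]; ring
    have b7 : 1 ≤ Y ^ (3 * s + 4) := one_le_pow₀ y1
    have b8 : Y * Y ^ (3 * s + 4) ≤ Y ^ (3 * s + 22) := by
      rw [← pow_succ']; exact pw (by omega)
    have b9 := mul_le_mul_of_nonneg_right y (zero_le_one.trans b7)
    have u0 : 0 ≤ U := by linarith
    have y0 : 0 ≤ Y := by linarith
    have c1 := mul_le_mul hj b5 (by positivity) (by positivity)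
    have c2 := Real.exp_le_exp.2 (c1.trans_eq b6)
    have c3 := Real.exp_le_exp.2 (show Y ^ (3 * s + 4) + 1 ≤ Y ^ (3 * s + 22) by linarith)
    have c4 := Real.one_le_exp (zero_le_one.trans b7)
    have c5 := mul_le_mul_of_nonneg_left (Real.add_one_le_exp 1) (Real.exp_pos (Y ^ (3 * s + 4))).le
    rw [← Real.exp_nat_mul]
    rw [Real.exp_add] at c3
    linarith

variable {C W E K : Type} [Fintype W] [DecidableEq W] [Fintype E] [DecidableEq E] [Fintype K]
  [DecidableEq K] {T : Tow} {cl : W → C} {m b : ℕ}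

/-- functions of the pure labels, multi-affine, vanishing with the special vertex -/
structure Dw (S : MS (Option W) (Lb T cl Unit m ⊕ E)) (φ : (Lb T cl Unit m ⊕ E → ℝ) → ℝ) :
    Prop where
  on : ∀ x x', (∀ i, Sum.elim Lb.Pure (fun _ => True) i → x i = x' i) → φ x = φ x'
  aff : ∀ v, Aff (S.st v) φ
  zero : ∀ y, φ (mix (S.st none) 0 y) = 0

section dw

variable {S : MS (Option W) (Lb T cl Unit m ⊕ E)} {φ ψ : (Lb T cl Unit m ⊕ E → ℝ) → ℝ}

theorem Dw.cmp (h : Dw S φ) (A : Finset (Option W)) : Dw S (cmp S A φ) :=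
  ⟨fun _ _ hx => cmp_congr _ h.on fun i a _ => hx i a, fun v => aff_cmp (h.aff v) A,
    cmp_kill h.zero A⟩

theorem Dw.sub (h : Dw S φ) (k : Dw S ψ) : Dw S fun x => φ x - ψ x :=
  ⟨fun _ _ hx => congrArg₂ _ (h.on _ _ hx) (k.on _ _ hx), fun v => (h.aff v).sub (k.aff v),
    fun y => by rw [h.zero, k.zero, sub_zero]⟩

theorem Dw.add (h : Dw S φ) (k : Dw S ψ) : Dw S fun x => φ x + ψ x :=
  ⟨fun _ _ hx => congrArg₂ _ (h.on _ _ hx) (k.on _ _ hx), fun v => aff_add (h.aff v) (k.aff v),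
    fun y => by rw [h.zero, k.zero, add_zero]⟩

theorem Dw.sum {J : Type} (s : Finset J) {f : J → (Lb T cl Unit m ⊕ E → ℝ) → ℝ}
    (h : ∀ j, Dw S (f j)) : Dw S fun x => ∑ j ∈ s, f j x :=
  ⟨fun _ _ hx => sum_congr rfl fun j _ => (h j).on _ _ hx,
    fun v => aff_sum s fun j _ => (h j).aff v, fun y => sum_eq_zero fun j _ => (h j).zero y⟩

theorem Dw.comp {X : Xt (Option W) (Lb T cl Unit m) E} {X' : Xt (Option W) (Lb T cl Unit m) K}
    {Q : (Lb T cl Unit m ⊕ K → ℝ) → Lb T cl Unit m ⊕ E → ℝ} (h : Dw (xt (sk T cl m) X) φ)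
    (ht : ∀ e, none ∉ X.fc e) (hQ : LA (xt (sk T cl m) X') (xt (sk T cl m) X) Q)
    (hl : ∀ y l, Q y (Sum.inl l) = y (Sum.inl l)) :
    Dw (xt (sk T cl m) X') fun y => φ (Q y) := by
  refine ⟨fun x x' hx => h.on _ _ ?_, fun v => hQ.aff_comp (h.aff v), fun y => ?_⟩
  · rintro (l | e) a
    · rw [hl, hl, hx (Sum.inl l) a]
    · refine hQ.loc _ _ _ ?_
      rintro (l | k) c
      · exact hx _ (Or.inl (not_not.1 fun d => ht e (c ((none_fo l).2 d))))
      · exact hx _ trivial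
  · refine Eq.trans (congrArg φ (funext fun i => ?_))
      (h.zero (Q (mix ((xt (sk T cl m) X').st none) 0 y)))
    by_cases k : i ∈ (xt (sk T cl m) X).st none
    · rw [mix_pos _ _ k]
      rcases i with l | e
      · have a : none ∈ fo l := (MS.mem_st _).1 k
        rw [hl]
        exact mix_pos _ _ ((MS.mem_st _).2 a)
      · exact absurd ((MS.mem_st _).1 k) (ht e)
    · rw [mix_neg _ _ k]

end dw

variable {X : Xt (Option W) (Lb T cl Unit m) E} {φ : (Lb T cl Unit m ⊕ E → ℝ) → ℝ}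

theorem dw_of (h : Dg X b φ) : Dw (xt (sk T cl m) X) φ :=
  ⟨fun x x' hx => h.on x x' (fun l a => hx (Sum.inl l) a) fun e => hx (Sum.inr e) trivial, h.aff,
    h.lin.zero⟩

theorem mem_tops {F : Finset W} : F ∈ tops cl b ↔ F.card = b ∧ Set.InjOn cl F := by
  simp [tops]

theorem out_fp {F G : Finset W} (hF : F ∈ tops cl b) (hG : G ∈ tops cl b) (h : F ≠ G) :
    ∃ v ∈ G.image some, v ∉ fp F := by
  obtain ⟨v, h1, h2⟩ := not_subset.1 fun k : G ⊆ F => h (eq_of_subset_of_card_le k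
    ((mem_tops.1 hF).1.trans (mem_tops.1 hG).1.symm).le).symm
  exact ⟨some v, mem_image_of_mem _ h1, by simpa [fp] using h2⟩

theorem alt_top (h : Dg X (b + 1) φ) {G : Finset W} (hG : G ∈ tops cl b) (x) :
    (xt (sk T cl m) X).alt (G.image some)
      (fun x => φ x - ∑ F : {F // F ∈ tops cl b}, cmp (xt (sk T cl m) X) (fp F.1) φ x) x = 0 := by
  rw [alt_sub, alt_sum, sum_eq_single_of_mem ⟨G, hG⟩ (mem_univ _) fun F _ k => by
    obtain ⟨v, h1, h2⟩ := out_fp F.2 hG fun e => k (Subtype.ext e)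
    exact (ind_on (on_cmp _ _) h2).zero h1 x,
    MS.alt_of_lin fun v hv => lin_cmp (h.aff v) (sub_fp G hv),
    h.alt_kz (Nat.succ_le_succ (mem_tops.1 hG).1.ge), fp, MS.alt_insert (by simp)]
  have : (xt (sk T cl m) X).alt (G.image some) φ (mix ((xt (sk T cl m) X).st none) 0 x) = 0 :=
    sum_eq_zero fun U _ => by rw [kz_kill, h.lin.zero, mul_zero]
  rw [this, sub_zero, sub_self]

variable (b) in
/-- the data of the demotion on the top faces -/
abbrev dt (X : Xt (Option W) (Lb T cl Unit m) E) (X₂ : Xt (Option W) (Lb T cl Unit m) K)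
    (M : Finset W → (Lb T cl Unit m ⊕ K → ℝ) → E → ℝ) (τ : ℕ) :
    Dt (Option W) (Lb T cl Unit m) E K {F // F ∈ tops cl b} :=
  ⟨sk T cl m, X, X₂, fun F => F.1.image some, fun F => M F.1, τ⟩

variable {X₂ : Xt (Option W) (Lb T cl Unit m) K}
  {M : Finset W → (Lb T cl Unit m ⊕ K → ℝ) → E → ℝ} {τ : ℕ}

/-- the form of smaller degree -/
def ph (D : Dt (Option W) (Lb T cl Unit m) E K {F // F ∈ tops cl b})
    (φ : (Lb T cl Unit m ⊕ E → ℝ) → ℝ) (c : {F // F ∈ tops cl b} → E → ℝ)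
    (y : Lb T cl Unit m ⊕ D.En → ℝ) : ℝ :=
  (φ (D.rE y) - ∑ F : {F // F ∈ tops cl b}, cmp (xt D.S D.X) (fp F.1) φ (D.rE y)) +
    ∑ F : {F // F ∈ tops cl b}, (cmp (xt D.S D.X) (fp F.1) φ (D.P F (D.ad c F y) y) -
      cmp (xt D.S D.X) (fp F.1) φ (D.P F 0 y))

theorem dg_ph (hD : (dt b X X₂ M τ).Ok) (ht : ∀ e, none ∉ X.fc e) (h : Dg X (b + 1) φ) (c) :
    Dg ((dt b X X₂ M τ).X' c) b (ph (dt b X X₂ M τ) φ c) := by
  have w := dw_of h
  have w1 : Dw (dt b X X₂ M τ).S' (ph (dt b X X₂ M τ) φ c) :=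
    ((w.sub (Dw.sum univ fun F => w.cmp _)).comp ht (dt b X X₂ M τ).la_rE fun _ _ => rfl).add
      (Dw.sum univ fun F => ((w.cmp _).comp ht (hD.la1 c F) fun _ _ => rfl).sub
        ((w.cmp _).comp ht (hD.la0 F) fun _ _ => rfl))
  refine ⟨fun x x' h1 h2 => w1.on x x' ?_, w1.aff, (w1.aff none).lin w1.zero, fun G hG x => ?_⟩
  · rintro (l | e) a
    exacts [h1 l a, h2 e]
  change (dt b X X₂ M τ).S'.alt _ _ x = 0
  unfold ph
  rw [alt_add, alt_sum]
  by_cases k : G ∈ tops cl b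
  · rw [(dt b X X₂ M τ).la_rE.alt_comp (alt_top h k), zero_add]
    refine sum_eq_zero fun F _ => ?_
    rw [alt_sub]
    by_cases e : F.1 = G
    · subst e
      exact sub_eq_zero.2 (hD.alt_shift c F (fun v _ => (w.cmp _).aff v)
        (fun x x' hx => congrArg _ (funext fun i => hx i fun _ _ a => a)) x)
    · obtain ⟨v, h1, h2⟩ := out_fp F.2 k e
      rw [(ind_on (on_comp (hD.la1 c F) (on_cmp _ _)) h2).zero h1,
        (ind_on (on_comp (hD.la0 F) (on_cmp _ _)) h2).zero h1, sub_self]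
  · have a := h.deg G (by
      rw [mem_tops] at k
      rcases hG with a | a
      · exact or_iff_not_imp_right.2 fun i => lt_of_le_of_ne a fun e => k ⟨e.symm, not_not.1 i⟩
      · exact Or.inr a)
    rw [(dt b X X₂ M τ).la_rE.alt_comp (φ := fun x => φ x - ∑ F : {F // F ∈ tops cl b},
      cmp (xt (sk T cl m) X) (fp F.1) φ x) fun x => by
        rw [alt_sub, alt_sum, a, sum_eq_zero fun F _ => alt_cmp a _ x, sub_self], zero_add]
    refine sum_eq_zero fun F _ => ?_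
    rw [alt_sub, (hD.la1 c F).alt_comp (alt_cmp a _), (hD.la0 F).alt_comp (alt_cmp a _), sub_self]

theorem ph_yy (hD : (dt b X X₂ M τ).Ok) (ht : ∀ e, none ∉ X.fc e)
    (hI : ∀ F ∈ tops cl b, ∀ e, X.fc e ⊆ F.image some → IntV fun y => M F y e) (z u w μ) :
    ph (dt b X X₂ M τ) φ (fun F => toR ((dt b X X₂ M τ).ci z u w μ F))
      ((dt b X X₂ M τ).yy z u w μ) = φ (jn z u) - ∑ F ∈ tops cl b,
        cmp (xt (sk T cl m) X) (fp F) φ (Sum.elim (toR z) (M F (jn z w))) := by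
  have a : ∀ (F : {F // F ∈ tops cl b}) e, Sum.inr e ∈ fce (xt (sk T cl m) X) (fp F.1) →
      X.fc e ⊆ F.1.image some := fun F e k v hv =>
    (mem_insert.1 (mem_fce.1 k hv)).resolve_left fun c => ht e (c ▸ hv)
  have e1 : ∀ F : {F // F ∈ tops cl b}, cmp (xt (sk T cl m) X) (fp F.1) φ
      ((dt b X X₂ M τ).P F ((dt b X X₂ M τ).ad (fun F => toR ((dt b X X₂ M τ).ci z u w μ F)) F
        ((dt b X X₂ M τ).yy z u w μ)) ((dt b X X₂ M τ).yy z u w μ)) =
      cmp (xt (sk T cl m) X) (fp F.1) φ (jn z u) := fun F => on_cmp _ _ _ _ (by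
    rintro (l | e) k
    exacts [rfl, hD.P_yy (a F e k) (hI F.1 F.2 e (a F e k)) z u w μ])
  have e2 : ∀ F : {F // F ∈ tops cl b}, cmp (xt (sk T cl m) X) (fp F.1) φ
      ((dt b X X₂ M τ).P F 0 ((dt b X X₂ M τ).yy z u w μ)) =
      cmp (xt (sk T cl m) X) (fp F.1) φ (Sum.elim (toR z) (M F.1 (jn z w))) :=
    fun F => on_cmp _ _ _ _ (by
      rintro (l | e) k
      · rfl
      · simp only [Dt.P, Sum.elim_inr, if_pos (a F e k), Dt.rK_yy, Pi.zero_apply, add_zero])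
  rw [ph, Dt.rE_yy, ← sum_coe_sort (tops cl b)]
  simp only [e1, e2, sum_sub_distrib]
  ring

theorem card_tops {Y : ℝ} {s : ℕ} (hb : b ≤ s) (h1 : 1 ≤ Y) (hW : (Fintype.card W : ℝ) ≤ Y) :
    (Fintype.card {F // F ∈ tops cl b} : ℝ) ≤ Y ^ s := by
  have a : (tops cl b).card ≤ Fintype.card W ^ b := by
    refine (card_le_card (t := powersetCard b univ) fun F hF =>
      mem_powersetCard.2 ⟨subset_univ _, (mem_tops.1 hF).1⟩).trans ?_
    rw [card_powersetCard, card_univ]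
    exact Nat.choose_le_pow _ _
  rw [Fintype.card_coe]
  calc ((tops cl b).card : ℝ) ≤ (Fintype.card W : ℝ) ^ b := by exact_mod_cast a
    _ ≤ Y ^ b := pow_le_pow_left₀ (Nat.cast_nonneg _) hW b
    _ ≤ Y ^ s := pow_le_pow_right₀ h1 hb

theorem dem (s τ : ℕ) : DEM s τ := by
  classical
  refine ⟨3 * s + 22, ?_⟩
  intro T C W E K _ _ _ _ _ _ cl m b X X₂ M n w Gd Y hb hT hc hW o1 z1 t1 o2 z2 t2 wn ww hM hG
  obtain ⟨n1, n2, n3, n4, n5⟩ := num hc
  have y : 22 ≤ Y := le_trans (by push_cast; linarith [(Nat.cast_nonneg s : (0 : ℝ) ≤ s)]) hc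
  have hD : (dt b X X₂ M τ).Ok := ⟨o1, o2, z2.tr, fun F e k => (hM F.1 F.2 e k).2, fun l => by
    change (fo l).Nonempty
    unfold fo
    split_ifs with k
    · have a := l.2.2.2
      rw [show l.1.2.2 = none from k] at a
      exact (card_pos.1 ((hT l.cd).trans_eq a.symm)).image _
    · exact insert_nonempty _ _⟩
  have fb : ∀ F, ((dt b X X₂ M τ).fa F).card ≤ b := fun F =>
    card_image_le.trans (mem_tops.1 F.2).1.le
  have ft : ∀ F, none ∉ (dt b X X₂ M τ).fa F := fun F => by simp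
  have c1 := card_tops (cl := cl) hb (by linarith) hW
  have c2 : (Fintype.card (dt b X X₂ M τ).Ix : ℝ) ≤ Y ^ (2 * s) := by
    refine le_trans (Nat.cast_le.2 ((dt b X X₂ M τ).card_ix fb)) ?_
    push_cast
    rw [two_mul, pow_add]
    exact mul_le_mul c1 ((pow_le_pow_left₀ zero_le_two (by linarith) b).trans
      (pow_le_pow_right₀ (by linarith) hb)) (by positivity) (by positivity)
  obtain ⟨μ, m1, m2⟩ := hD.sel ft z1 c2 n1
  have wo : ∀ z z' : Lb T cl Unit m → ℤ, (∀ l, l.bs = none → z l = z' l) →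
      ∀ i, none ∉ (dt b X X₂ M τ).S.fc i → z i = z' i := fun z z' h i k =>
    h i (not_not.1 fun c => k ((none_fo i).2 c))
  choose St s1 s2 using fun F => count (r := 2 * Y ^ (2 * s + 2)) o1.pd
    (fun l l' k => by by_contra c; exact k (o1.ort l l' c).2) (hD.tri_kc F) z1.sep (by positivity)
  let ci := fun z => (dt b X X₂ M τ).ci z (n z) (w z) (μ z (n z) (w z))
  let cs : (Lb T cl Unit m → ℤ) → Option {a // a ∈ Fintype.piFinset St} := fun z =>
    if h : ci z ∈ Fintype.piFinset St then some ⟨ci z, h⟩ else none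
  refine ⟨Option {a // a ∈ Fintype.piFinset St}, inferInstance, cs, fun z z' h => ?_, ?_,
    fun a => ?_⟩
  · have : ci z = ci z' := by
      simp only [ci, wn z z' h, ww z z' h, m1 z z' (wo z z' h)]
      exact hD.ci_congr ft (wo z z' h) _ _ _
    simp only [cs, this]
  · rw [Fintype.card_option, Fintype.card_coe, Fintype.card_piFinset]
    push_cast
    refine le_trans ?_ (n5 _ _ (Nat.cast_nonneg _) z1.card c1)
    refine add_le_add ((prod_le_prod (fun _ _ => Nat.cast_nonneg _) fun F _ => s2 F).trans_eq ?_)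
      le_rfl
    rw [prod_const, card_univ]
  have key : ∀ z, Gd z → cs z = a → a.elim 0 Subtype.val = ci z := fun z g k => by
    have : ci z ∈ Fintype.piFinset St := Fintype.mem_piFinset.2 fun F => s1 F _
      ((hD.near fb (fun e k => (hM F.1 F.2 e k).1) (hG z g).1 ((hG z g).2.2 F.1 F.2)
        (m2 z (n z) (w z))).trans (n4 b hb))
    rw [← k]
    simp only [cs, dif_pos this, Option.elim]
  refine ⟨_, inferInstance, inferInstance,
    (dt b X X₂ M τ).X' fun F => toR (a.elim 0 Subtype.val F),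
    fun z => Sum.elim (n z) (Sum.elim (w z) (μ z (n z) (w z))), hD.ok _, ?_, ?_, fun z z' h => ?_,
    fun z g k => ?_, fun φ hφ => ⟨_, dg_ph hD t1 hφ _, fun z g k => ?_⟩⟩
  · have := hD.sz z1 z2 c2
    exact ⟨(this _).tr, (this 0).card.trans n2, (this 0).sep,
      (this 0).cx.trans (Real.exp_le_exp.2 n2)⟩
  · rintro (e | k | d)
    exacts [t1 e, t2 k, fun c => ft _ (mem_powerset.1 (mem_erase.1 d.2.2.2).2 c)]
  · simp only [wn z z' h, ww z z' h, m1 z z' (wo z z' h)]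
  · rw [key z g k]
    exact (hD.ps (hG z g).1 (hG z g).2.1 (m2 z (n z) (w z))).trans n3
  · rw [key z g k]
    exact ph_yy hD t1 (fun F k e k' => (hM F k e k').1) z _ _ _

end

end Vale.Agent.P057DE
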