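import Vale.Agent.P057DE.Sys
import Vale.Agent.P057FI.Rnd
import Vale.Agent.P057TE.Thb
import Vale.Agent.P057SH.Mass
import Vale.Agent.P057CO.Xt
import Vale.Agent.P057PC.Blow

/-!
Sizes: the Gram matrix of the new extra coordinates, rounding, and the number of constants.
-/

set_option linter.all false

open Matrix Finset
open scoped Real
open Vale.Agent.P267.H775 Vale.Agent.P057G Vale.Agent.P057SY Vale.Agent.P057PC
open Vale.Agent.P057MA (On fce Fm IntV)
open Vale.Agent.P057PL (LA)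

namespace Vale.Agent.P057DE

noncomputable section

section gr

variable {L J : Type} [Fintype L] [DecidableEq L] [Fintype J] [DecidableEq J] {G : Matrix L L ℝ}

theorem th_bd (hG : G.PosDef) :
    th (blockDiagonal fun _ : J => G)⁻¹ 0 = th G⁻¹ 0 ^ Fintype.card J := by
  have h := P057EN.Ex_pi (J := J) (lv := fun _ => 0) (p := fun _ _ _ => 0) (fun _ _ _ _ _ => rfl) hG
    (f := fun _ _ => 1) (C := 1) (by simp)
  simp only [prod_const_one, Ex_one, prod_const, card_univ] at h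
  rw [← ms_zero hG, ← ms_zero (P057EN.posDef_bd hG)]
  exact_mod_cast h

theorem sep_bd (hG : G.PosDef) (hs : ∀ k : L → ℤ, k ≠ 0 → 1 ≤ qq G (toR k)) (k : L × J → ℤ)
    (hk : k ≠ 0) : 1 ≤ qq (blockDiagonal fun _ : J => G) (toR k) := by
  obtain ⟨⟨b, n⟩, e⟩ := Function.ne_iff.1 hk
  rw [P057EN.qq_bd]
  exact (hs (fun b => k (b, n)) fun c => e (congrFun c b)).trans
    (single_le_sum (f := fun n => qq G fun b => toR k (b, n))
      (fun _ _ => qq_nonneg hG.posSemidef _) (mem_univ n))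

theorem sep_blocks {H : Matrix J J ℝ} (hG : G.PosDef) (hH : H.PosDef)
    (hs : ∀ k : L → ℤ, k ≠ 0 → 1 ≤ qq G (toR k)) (ht : ∀ k : J → ℤ, k ≠ 0 → 1 ≤ qq H (toR k))
    (k : L ⊕ J → ℤ) (hk : k ≠ 0) : 1 ≤ qq (fromBlocks G 0 0 H) (toR k) := by
  rw [qq_blocks]
  obtain ⟨a | a, e⟩ := Function.ne_iff.1 hk
  · exact (hs (k ∘ Sum.inl) fun c => e (congrFun c a)).trans
      (le_add_of_nonneg_right (qq_nonneg hH.posSemidef _))
  · exact (ht (k ∘ Sum.inr) fun c => e (congrFun c a)).trans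
      (le_add_of_nonneg_left (qq_nonneg hG.posSemidef _))

theorem qq_mask {A : Type} {f : L → A} (hG : G.PosDef) (ho : ∀ a b, G a b ≠ 0 → f a = f b)
    (p : A → Prop) [DecidablePred p] (v : L → ℝ) :
    qq G (fun a => if p (f a) then v a else 0) ≤ qq G v := by
  have h : Ort G fun a => p (f a) := fun i j a b => by
    by_contra c
    exact b (show p (f j) from ho i j c ▸ a)
  have e1 : rs (fun a => p (f a)) (fun a => if p (f a) then v a else 0) = rs _ v :=
    funext fun a => if_pos a.2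
  have e2 : rs (fun a => ¬ p (f a)) (fun a => if p (f a) then v a else 0) = 0 :=
    funext fun a => if_neg a.2
  rw [qq_split hG.1 h, qq_split hG.1 h v, e1, e2, qq_zero]
  exact add_le_add le_rfl (qq_nonneg (posDef_bk hG _).posSemidef _)

theorem qq_sub_le (hG : G.PosDef) (x y : L → ℝ) : qq G (x - y) ≤ 2 * qq G x + 2 * qq G y := by
  have h := qq_nonneg hG.posSemidef (x + y)
  rw [qq_add hG.1] at h
  rw [qq_sub hG.1]
  linarith

theorem count {lv : L → ℕ} {p : (L → ℤ) → L → ℝ} (hG : G.PosDef)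
    (ho : ∀ l l', lv l ≠ lv l' → G l l' = 0) (hp : Tri lv p)
    (hs : ∀ k : L → ℤ, k ≠ 0 → 1 ≤ qq G (toR k)) {r : ℝ} (hr : 0 ≤ r) :
    ∃ s : Finset (L → ℤ), (∀ a, qq G (toR a - p a) ≤ Real.exp r → a ∈ s) ∧
      (s.card : ℝ) ≤ Real.exp (4 + Fintype.card L * r + 4 * ((Fintype.card L : ℝ) + 1) ^ 2) := by
  have c0 : 0 < Real.exp (-r) := Real.exp_pos _
  have c1 : Real.exp (-r) ≤ 1 := Real.exp_le_one_iff.2 (by linarith)
  have hH : (Real.exp (-r) • G).PosDef := hG.smul c0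
  have h1 := hp.summable hH
  have h2 : {a : L → ℤ | ¬ gs (Real.exp (-r) • G) (toR a - p a) < Real.exp (-4)}.Finite :=
    Filter.eventually_cofinite.mp (h1.tendsto_cofinite_zero.eventually (gt_mem_nhds (Real.exp_pos _)))
  refine ⟨h2.toFinset, fun a ha => h2.mem_toFinset.2 (not_lt.2 (Real.exp_le_exp.2 ?_)), ?_⟩
  · rw [qq_smul_mat]
    have e1 : Real.exp (-r) * qq G (toR a - p a) ≤ 1 := by
      refine (mul_le_mul_of_nonneg_left ha c0.le).trans_eq ?_
      rw [← Real.exp_add, neg_add_cancel, Real.exp_zero]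
    have := Real.pi_le_four
    have := Real.pi_pos
    nlinarith
  have h3 : (h2.toFinset.card : ℝ) * Real.exp (-4) ≤
      ∑' a, gs (Real.exp (-r) • G) (toR a - p a) := by
    refine le_trans ?_ (h1.sum_le_tsum h2.toFinset fun _ _ => (gs_pos _ _).le)
    rw [← nsmul_eq_mul]
    exact card_nsmul_le_sum _ _ _ fun a ha => not_lt.1 (h2.mem_toFinset.1 ha)
  have h4 := P057SH.ms_tri_le hH (fun l l' e => by simp [ho l l' e]) hp
  simp only [ms, ng, tsum_div_const] at h4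
  have h5 := (div_le_div_iff_of_pos_right (vol_pos hH)).1 h4
  have h6 := th_smul_le c0 c1 hG 0
  have h7 := P057TE.th_sep hG 0 (N := 0) le_rfl (fun z hz _ => hs z hz) fun x => by
    rw [show toR (0 : L → ℤ) = 0 from funext fun _ => Int.cast_zero]; simp
  rw [max_eq_left zero_le_one, one_mul] at h7
  have h8 : (√(Real.exp (-r)))⁻¹ ^ Fintype.card L ≤ Real.exp (Fintype.card L * r) := by
    rw [Real.exp_nat_mul, Real.exp_neg, Real.sqrt_inv, inv_inv]
    refine pow_le_pow_left₀ (Real.sqrt_nonneg _) (Real.sqrt_le_iff.2 ⟨(Real.exp_pos _).le, ?_⟩) _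
    have := Real.one_le_exp hr
    nlinarith
  have h9 := (h3.trans h5).trans (h6.trans
    (mul_le_mul h8 h7 (th_nonneg _ _) (Real.exp_pos _).le))
  generalize (h2.toFinset.card : ℝ) = N at h9 ⊢
  rw [Real.exp_neg, ← div_eq_mul_inv, div_le_iff₀ (Real.exp_pos _), ← Real.exp_add,
    ← Real.exp_add] at h9
  refine h9.trans_eq (congrArg _ ?_)
  ring

end gr

namespace Dt

variable {V ι E K Φ : Type} [Fintype V] [DecidableEq V] [Fintype ι] [DecidableEq ι] [Fintype E]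
  [DecidableEq E] [Fintype K] [DecidableEq K] [Fintype Φ] [DecidableEq Φ] (D : Dt V ι E K Φ)

theorem card_bx {b : ℕ} (hb : ∀ F, (D.fa F).card ≤ b) (F : Φ) : Fintype.card (D.Bx F) ≤ 2 ^ b := by
  rw [Fintype.card_coe]
  refine card_erase_le.trans ?_
  rw [card_powerset]
  exact Nat.pow_le_pow_right two_pos (hb F)

theorem card_ix {b : ℕ} (hb : ∀ F, (D.fa F).card ≤ b) :
    Fintype.card D.Ix ≤ Fintype.card Φ * 2 ^ b := by
  refine (Fintype.card_sigma (α := D.Bx)).trans_le ?_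
  exact (sum_le_card_nsmul _ _ _ fun F _ => D.card_bx hb F).trans_eq (by simp)

/-- the configuration with the new coordinates -/
def yy (z : ι → ℤ) (n : E → ℤ) (w : K → ℤ) (μ : E × D.Ix → ℤ) : ι ⊕ D.En → ℝ :=
  jn z (Sum.elim n (Sum.elim w μ))

/-- the constants -/
def ci (z : ι → ℤ) (n : E → ℤ) (w : K → ℤ) (μ : E × D.Ix → ℤ) (F : Φ) (e : E) : ℤ :=
  if D.X.fc e ⊆ D.fa F then n e - round (D.M F (jn z w) e) -
    ∑ B : D.Bx F, if B.1 ⊂ D.X.fc e then μ (e, ⟨F, B⟩) else 0 else 0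

theorem rE_yy (z n w μ) : D.rE (D.yy z n w μ) = jn z n := by
  funext i; cases i <;> rfl

theorem rK_yy (z n w μ) : D.rK (D.yy z n w μ) = jn z w := by
  funext i; cases i <;> rfl

variable {D} (h : D.Ok)
include h

theorem Ok.sz {Y n : ℝ} (h1 : D.X.Sz D.τ Y) (h2 : D.Y.Sz D.τ Y) (hn : (Fintype.card D.Ix : ℝ) ≤ n)
    (g) : (D.x0 g).Sz (2 * D.τ) (Y * (2 + n)) := by
  have y0 : 0 ≤ Y := (Nat.cast_nonneg _).trans h1.card
  refine ⟨?_, ?_, sep_blocks h.o1.pd (posDef_blocks h.o2.pd (P057EN.posDef_bd h.o1.pd)) h1.sep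
    (sep_blocks h.o2.pd (P057EN.posDef_bd h.o1.pd) h2.sep (sep_bd h.o1.pd h1.sep)), ?_⟩
  · rintro (e | k | d)
    · exact (h1.tr e).trans_le (by omega)
    · exact (h2.tr k).trans_le (by omega)
    · have := h1.tr d.1
      change D.τ + D.X.tr d.1 < _
      omega
  · simp only [Fintype.card_sum, Fintype.card_prod]
    push_cast
    have := mul_le_mul h1.card hn (Nat.cast_nonneg _) y0
    linarith [h1.card, h2.card]
  · change th (fromBlocks _ 0 0 _)⁻¹ 0 ≤ _
    rw [P057CO.th_blocks h.o1.pd (posDef_blocks h.o2.pd (P057EN.posDef_bd h.o1.pd)),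
      P057CO.th_blocks h.o2.pd (P057EN.posDef_bd h.o1.pd), th_bd h.o1.pd]
    have a := pow_le_pow_left₀ (th_nonneg _ _) h1.cx (Fintype.card D.Ix)
    rw [← Real.exp_nat_mul] at a
    refine (mul_le_mul h1.cx (mul_le_mul h2.cx a (pow_nonneg (th_nonneg _ _) _) (Real.exp_pos _).le)
      (mul_nonneg (th_nonneg _ _) (pow_nonneg (th_nonneg _ _) _)) (Real.exp_pos _).le).trans ?_
    rw [← Real.exp_add, ← Real.exp_add]
    refine Real.exp_le_exp.2 ?_
    have := mul_le_mul_of_nonneg_right hn y0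
    linarith

theorem Ok.exists_mu {Y n : ℝ} (h1 : D.X.Sz D.τ Y) (hn : (Fintype.card D.Ix : ℝ) ≤ n)
    (hY : 2 ≤ Y * n) (z : ι → ℤ) (u : E → ℤ) (w : K → ℤ) :
    ∃ μ : E × D.Ix → ℤ, qq (blockDiagonal fun _ => D.X.G)
      (toR μ - D.gD (fun F => toR (D.ci z u w μ F)) (D.yy z u w μ)) ≤ Real.exp (4 * (Y * n)) := by
  have y0 : 0 ≤ Y := (Nat.cast_nonneg _).trans h1.card
  refine P057FI.rnd0 (lv := fun d => D.X.tr d.1) (P057EN.posDef_bd h.o1.pd) ?_ ?_ hY ?_ ?_
  · rintro ⟨e, i⟩ ⟨e', i'⟩ k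
    rw [blockDiagonal_apply]
    split_ifs
    · by_contra c
      exact k (h.o1.ort e e' c).2
    · rfl
  · intro d μ μ' hμ
    refine h.low_gD (fun e he => ?_) (fun _ _ => rfl) ?_
    · simp only [toR, ci]
      congr 3
      exact sum_congr rfl fun B _ => by rw [hμ (e, ⟨_, B⟩) he]
    · rintro (e | k | d') _ a
      exacts [rfl, rfl, congrArg Int.cast (hμ d' (Nat.lt_of_add_lt_add_left a))]
  · rw [Fintype.card_prod]
    push_cast
    exact mul_le_mul h1.card hn (Nat.cast_nonneg _) y0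
  · rw [th_bd h.o1.pd]
    refine (pow_le_pow_left₀ (th_nonneg _ _) h1.cx _).trans ?_
    rw [← Real.exp_nat_mul, mul_comm]
    exact Real.exp_le_exp.2 (mul_le_mul_of_nonneg_left hn y0)

theorem Ok.ci_congr {t : V} (ht : ∀ F, t ∉ D.fa F) {z z' : ι → ℤ}
    (hz : ∀ i, t ∉ D.S.fc i → z i = z' i) (u w μ) : D.ci z u w μ = D.ci z' u w μ := by
  funext F e
  unfold ci
  split_ifs with k
  · have : D.M F (jn z w) e = D.M F (jn z' w) e := by
      refine (h.fm F e k).on (jn z w) (jn z' w) ?_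
      rintro (i | j) hi
      exacts [congrArg Int.cast (hz i fun a => ht F (k (mem_fce.1 hi a))), rfl]
    rw [this]
  · rfl

theorem Ok.sel {t : V} (ht : ∀ F, t ∉ D.fa F) {Y n : ℝ} (h1 : D.X.Sz D.τ Y)
    (hn : (Fintype.card D.Ix : ℝ) ≤ n) (hY : 2 ≤ Y * n) :
    ∃ μ : (ι → ℤ) → (E → ℤ) → (K → ℤ) → E × D.Ix → ℤ,
      (∀ z z', (∀ i, t ∉ D.S.fc i → z i = z' i) → μ z = μ z') ∧
      ∀ z u w, qq (blockDiagonal fun _ => D.X.G) (toR (μ z u w) -
        D.gD (fun F => toR (D.ci z u w (μ z u w) F)) (D.yy z u w (μ z u w))) ≤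
          Real.exp (4 * (Y * n)) := by
  choose R hR using h.exists_mu h1 hn hY
  refine ⟨fun z => R fun i => if t ∈ D.S.fc i then 0 else z i, fun z z' hz => congrArg R
    (funext fun i => by split_ifs with k; exacts [rfl, hz i k]), fun z u w => ?_⟩
  refine le_trans (le_of_eq ?_) (hR (fun i => if t ∈ D.S.fc i then 0 else z i) u w)
  rw [h.ci_congr ht (z := z) (z' := fun i => if t ∈ D.S.fc i then 0 else z i)
    fun i k => (if_neg k).symm]
  congr 2
  funext d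
  refine h.low_gD (fun _ _ => rfl) (fun i hi => congrArg Int.cast (if_neg fun a => ?_).symm)
    fun _ _ _ => rfl
  exact ht _ (mem_powerset.1 (mem_erase.1 d.2.2.2).2 (hi a))

theorem Ok.P_yy {F : Φ} {e : E} (he : D.X.fc e ⊆ D.fa F) (hI : IntV fun y => D.M F y e)
    (z u w μ) : D.P F (D.ad (fun F => toR (D.ci z u w μ F)) F (D.yy z u w μ)) (D.yy z u w μ)
      (Sum.inr e) = u e := by
  obtain ⟨a, ha⟩ := hI (Sum.elim z w)
  rw [P057CO.toR_elim] at ha
  have hb : D.M F (jn z w) e = a := ha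
  simp only [P, Sum.elim_inr, if_pos he, rK_yy, ad, toR, ci, hb, round_intCast]
  push_cast
  have : ∀ B : D.Bx F, D.mu (D.yy z u w μ) (e, ⟨F, B⟩) = μ (e, ⟨F, B⟩) := fun _ => rfl
  simp only [this]
  ring

theorem Ok.near {b : ℕ} (hb : ∀ F, (D.fa F).card ≤ b) {F : Φ}
    (hI : ∀ e, D.X.fc e ⊆ D.fa F → IntV fun y => D.M F y e) {z u w μ} {r ρ : ℝ}
    (h1 : Ps D.X z u r)
    (h2 : qq D.X.G (fun e => if D.X.fc e ⊆ D.fa F then D.M F (jn z w) e -
      D.ag e (Sum.elim (toR z) (D.M F (jn z w))) else 0) ≤ r)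
    (h3 : qq (blockDiagonal fun _ => D.X.G)
      (toR μ - D.gD (fun F => toR (D.ci z u w μ F)) (D.yy z u w μ)) ≤ ρ) :
    qq D.X.G (toR (D.ci z u w μ F) - D.kc F (toR (D.ci z u w μ F))) ≤ 8 * r + 2 * 4 ^ b * ρ := by
  set c : Φ → E → ℝ := fun F => toR (D.ci z u w μ F) with hc
  set v := toR μ - D.gD c (D.yy z u w μ) with hv
  have pd := h.o1.pd
  have ho : ∀ a b, D.X.G a b ≠ 0 → D.X.fc a = D.X.fc b := fun a b k => (h.o1.ort a b k).1
  have e1 : c F - D.kc F (c F) =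
      ((fun e => if D.X.fc e ⊆ D.fa F then (toR u - D.X.g (jn z u)) e else 0) -
        fun e => if D.X.fc e ⊆ D.fa F then D.M F (jn z w) e -
          D.ag e (Sum.elim (toR z) (D.M F (jn z w))) else 0) -
      ∑ B : D.Bx F, fun e =>
        if B.1 ⊂ D.X.fc e ∧ D.X.fc e ⊆ D.fa F then v (e, ⟨F, B⟩) else 0 := by
    funext e
    simp only [Pi.sub_apply, Finset.sum_apply]
    by_cases k : D.X.fc e ⊆ D.fa F
    · have a1 := h.pos c k (D.yy z u w μ)
      have a2 := h.P_yy k (hI e k) z u w μ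
      have a3 : D.X.g (D.P F (D.ad c F (D.yy z u w μ)) (D.yy z u w μ)) e = D.X.g (jn z u) e :=
        h.o1.loc e _ _ (fun _ _ => rfl) fun e' a _ =>
          h.P_yy (a.trans k) (hI e' (a.trans k)) z u w μ
      have a4 : D.ag e (D.P F 0 (D.yy z u w μ)) = D.ag e (Sum.elim (toR z) (D.M F (jn z w))) := by
        refine h.on_ag e _ _ ?_
        rintro (i | e') hi
        · rfl
        · have k' : D.X.fc e' ⊆ D.fa F := Subset.trans (mem_fce.1 hi) k
          simp only [P, Sum.elim_inr, if_pos k', rK_yy, Pi.zero_apply, add_zero]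
      have a5 : ∑ B : D.Bx F, (if B.1 ⊂ D.X.fc e then v (e, ⟨F, B⟩) else 0) =
          (∑ B : D.Bx F, if B.1 ⊂ D.X.fc e then D.mu (D.yy z u w μ) (e, ⟨F, B⟩) else 0) -
          ∑ B : D.Bx F, if B.1 ⊂ D.X.fc e then D.gD c (D.yy z u w μ) (e, ⟨F, B⟩) else 0 := by
        rw [← sum_sub_distrib]
        refine sum_congr rfl fun B _ => ?_
        split_ifs
        exacts [rfl, (sub_self _).symm]
      rw [hh, a3, a4] at a1
      simp only [P, Sum.elim_inr, if_pos k, rK_yy, ad] at a2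
      simp only [k, and_true, if_true, a5, toR_apply]
      linarith
    · simp only [k, and_false, if_false, sum_const_zero, sub_self, hc, toR, ci, kc, Int.cast_zero]
  have e2 : ∀ B : D.Bx F, qq D.X.G (fun e =>
      if B.1 ⊂ D.X.fc e ∧ D.X.fc e ⊆ D.fa F then v (e, ⟨F, B⟩) else 0) ≤ ρ := fun B => by
    refine (qq_mask pd ho (fun A => B.1 ⊂ A ∧ A ⊆ D.fa F) _).trans (le_trans ?_ h3)
    rw [P057EN.qq_bd]
    exact single_le_sum (f := fun n : D.Ix => qq D.X.G fun b => v (b, n))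
      (fun _ _ => qq_nonneg pd.posSemidef _) (mem_univ _)
  have r0 : 0 ≤ ρ := (qq_nonneg (P057EN.posDef_bd pd).posSemidef _).trans h3
  have e3 := qq_sum_le pd.posSemidef univ fun (B : D.Bx F) e =>
    if B.1 ⊂ D.X.fc e ∧ D.X.fc e ⊆ D.fa F then v (e, ⟨F, B⟩) else 0
  have e4 := sum_le_card_nsmul univ _ _ fun B _ => e2 B
  have e5 : ((univ : Finset (D.Bx F)).card : ℝ) ≤ 2 ^ b := by exact_mod_cast D.card_bx hb F
  rw [nsmul_eq_mul] at e4
  have e6 := e3.trans (mul_le_mul e5 (e4.trans (mul_le_mul_of_nonneg_right e5 r0))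
    (sum_nonneg fun _ _ => qq_nonneg pd.posSemidef _) (by positivity))
  have e7 := (qq_mask pd ho (· ⊆ D.fa F) _).trans h1
  have e8 : (2 : ℝ) ^ b * (2 ^ b * ρ) = 4 ^ b * ρ := by rw [← mul_assoc, ← mul_pow]; norm_num
  rw [e1]
  refine (qq_sub_le pd _ _).trans ?_
  linarith [qq_sub_le pd (fun e => if D.X.fc e ⊆ D.fa F then (toR u - D.X.g (jn z u)) e else 0)
    fun e => if D.X.fc e ⊆ D.fa F then D.M F (jn z w) e -
      D.ag e (Sum.elim (toR z) (D.M F (jn z w))) else 0]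

theorem Ok.tri_kc (F : Φ) : Tri D.X.tr fun a => D.kc F (toR a) := fun e a a' ha => by
  simp only [kc]
  split_ifs
  · refine h.o1.loc e _ _ (fun _ _ => rfl) fun e' _ k => ?_
    simp only [Sum.elim_inr, toR, ha e' k]
  · rfl

theorem Ok.ps {z u w μ} {c : Φ → E → ℝ} {r ρ : ℝ} (h1 : Ps D.X z u r) (h2 : Ps D.Y z w r)
    (h3 : qq (blockDiagonal fun _ => D.X.G) (toR μ - D.gD c (D.yy z u w μ)) ≤ ρ) :
    Ps (D.X' c) z (Sum.elim u (Sum.elim w μ)) (2 * r + ρ) := by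
  change qq (fromBlocks _ 0 0 _) (toR _ - Sum.elim (D.X.g (D.rE (D.yy z u w μ)))
    (Sum.elim (D.Y.g (D.rK (D.yy z u w μ))) (D.gD c (D.yy z u w μ)))) ≤ _
  rw [qq_blocks, qq_blocks, rE_yy, rK_yy]
  exact (add_le_add h1 (add_le_add h2 h3)).trans_eq (by ring)

end Dt

end

end Vale.Agent.P057DE
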