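import Vale.Agent.P057DE.Alt
import Vale.Agent.P057EN.Prd

/-!
The extra coordinates after the demotion.
-/

set_option linter.all false

open Matrix Finset
open Vale.Agent.P267.H775 Vale.Agent.P057G Vale.Agent.P057SY Vale.Agent.P057PC
open Vale.Agent.P057MA (On fce Fm)
open Vale.Agent.P057PL (LA)

namespace Vale.Agent.P057DE

noncomputable section

theorem on_comp {V ι κ : Type} [DecidableEq V] [Fintype ι] [DecidableEq ι] [Fintype κ]
    [DecidableEq κ] {S' : MS V κ} {S : MS V ι} {Q : (κ → ℝ) → ι → ℝ} {φ : (ι → ℝ) → ℝ}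
    {A : Finset V} (h : LA S' S Q) (hφ : On (fce S A) φ) : On (fce S' A) fun y => φ (Q y) :=
  fun x x' hx => hφ _ _ fun i hi => h.loc i _ _ fun k hk =>
    hx k (mem_fce.2 (hk.trans (mem_fce.1 hi)))

/-- the data of a demotion -/
structure Dt (V ι E K Φ : Type) where
  S : MS V ι
  X : Xt V ι E
  Y : Xt V ι K
  fa : Φ → Finset V
  M : Φ → (ι ⊕ K → ℝ) → E → ℝ
  τ : ℕ

namespace Dt

variable {V ι E K Φ : Type} [Fintype V] [DecidableEq V] [Fintype ι] [DecidableEq ι] [Fintype E]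
  [DecidableEq E] [Fintype K] [DecidableEq K] [Fintype Φ] [DecidableEq Φ] (D : Dt V ι E K Φ)

/-- nonempty faces inside a top face -/
abbrev Bx (F : Φ) : Type := {B // B ∈ (D.fa F).powerset.erase ∅}

def Ix : Type := Σ F : Φ, D.Bx F

instance : DecidableEq D.Ix := Classical.decEq _

instance : Fintype D.Ix := inferInstanceAs (Fintype (Σ F : Φ, D.Bx F))

abbrev En : Type := E ⊕ K ⊕ E × D.Ix

abbrev x0 (g : (ι ⊕ D.En → ℝ) → D.En → ℝ) : Xt V ι D.En :=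
  ⟨Sum.elim D.X.fc (Sum.elim D.Y.fc fun d => d.2.2.1),
    Sum.elim D.X.tr (Sum.elim D.Y.tr fun d => D.τ + D.X.tr d.1),
    fromBlocks D.X.G 0 0 (fromBlocks D.Y.G 0 0 (blockDiagonal fun _ => D.X.G)), g⟩

def S' : MS V (ι ⊕ D.En) := xt D.S (D.x0 0)

def rE (y : ι ⊕ D.En → ℝ) : ι ⊕ E → ℝ := y ∘ Sum.map id Sum.inl

def rK (y : ι ⊕ D.En → ℝ) : ι ⊕ K → ℝ := y ∘ Sum.map id (Sum.inr ∘ Sum.inl)

def mu (y : ι ⊕ D.En → ℝ) (d : E × D.Ix) : ℝ := y (Sum.inr (Sum.inr (Sum.inr d)))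

def ad (c : Φ → E → ℝ) (F : Φ) (y : ι ⊕ D.En → ℝ) (e : E) : ℝ :=
  c F e + ∑ B : D.Bx F, if B.1 ⊂ D.X.fc e then D.mu y (e, ⟨F, B⟩) else 0

def P (F : Φ) (a : E → ℝ) (y : ι ⊕ D.En → ℝ) : ι ⊕ E → ℝ :=
  Sum.elim (y ∘ Sum.inl) fun e => if D.X.fc e ⊆ D.fa F then D.M F (D.rK y) e + a e else 0

def ag (e : E) : (ι ⊕ E → ℝ) → ℝ := (xt D.S D.X).alt (D.X.fc e) fun x => D.X.g x e

def hh (c : Φ → E → ℝ) (F : Φ) (e : E) (y : ι ⊕ D.En → ℝ) : ℝ :=
  D.X.g (D.P F (D.ad c F y) y) e - D.ag e (D.P F 0 y)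

def gD (c : Φ → E → ℝ) (y : ι ⊕ D.En → ℝ) (d : E × D.Ix) : ℝ :=
  if d.2.2.1 ⊂ D.X.fc d.1 ∧ D.X.fc d.1 ⊆ D.fa d.2.1 then cmp D.S' d.2.2.1 (D.hh c d.2.1 d.1) y
  else 0

abbrev X' (c : Φ → E → ℝ) : Xt V ι D.En :=
  D.x0 fun y => Sum.elim (D.X.g (D.rE y)) (Sum.elim (D.Y.g (D.rK y)) (D.gD c y))

structure Ok : Prop where
  o1 : D.X.Ok D.S
  o2 : D.Y.Ok D.S
  t2 : ∀ k, D.Y.tr k < D.τ
  fm : ∀ F e, D.X.fc e ⊆ D.fa F →
    Fm (xt D.S D.Y) (fce (xt D.S D.Y) (D.X.fc e)) (D.X.fc e) fun y => D.M F y e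
  ne : ∀ i, (D.S.fc i).Nonempty

theorem la_rE : LA D.S' (xt D.S D.X) D.rE :=
  ⟨fun i _ _ h => h _ (by cases i <;> exact subset_rfl), fun _ _ _ => aff_coord _ _⟩

theorem la_rK : LA D.S' (xt D.S D.Y) D.rK :=
  ⟨fun i _ _ h => h _ (by cases i <;> exact subset_rfl), fun _ _ _ => aff_coord _ _⟩

theorem on_ad (c : Φ → E → ℝ) (F : Φ) (e : E) :
    On (fce D.S' (D.X.fc e)) fun y => D.ad c F y e := fun x x' h =>
  congrArg _ (sum_congr rfl fun B _ => by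
    split_ifs with k
    exacts [h _ (mem_fce.2 k.subset), rfl])

theorem aff_ad (c : Φ → E → ℝ) (F : Φ) (e : E) (r : Finset (ι ⊕ D.En)) :
    Aff r fun y => D.ad c F y e :=
  aff_add (aff_const _ _) (aff_sum _ fun B _ => by
    split_ifs
    exacts [aff_coord _ _, aff_const _ _])

variable {D} (h : D.Ok)
include h

theorem Ok.alt_ad (c : Φ → E → ℝ) (F : Φ) (e : E) (y : ι ⊕ D.En → ℝ) :
    D.S'.alt (D.X.fc e) (fun y => D.ad c F y e) y = 0 := by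
  obtain ⟨v, hv⟩ := h.o1.ne e
  unfold ad
  rw [alt_add, Ind.zero (fun _ => rfl) hv, zero_add, alt_sum]
  refine sum_eq_zero fun B _ => ?_
  split_ifs with k
  · obtain ⟨w, h1, h2⟩ := exists_of_ssubset k
    exact Ind.zero (fun y => mix_neg _ _ fun a => h2 ((MS.mem_st _).1 a)) h1 y
  · exact Ind.zero (fun _ => rfl) hv y

theorem Ok.la_P (F : Φ) {a : (ι ⊕ D.En → ℝ) → E → ℝ}
    (h1 : ∀ e, On (fce D.S' (D.X.fc e)) fun y => a y e)
    (h2 : ∀ e v, Aff (D.S'.st v) fun y => a y e) :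
    LA D.S' (xt D.S D.X) fun y => D.P F (a y) y := by
  constructor
  · rintro (i | e) x x' hx
    · exact hx _ subset_rfl
    · simp only [P, Sum.elim_inr]
      split_ifs with k
      · have hx' : ∀ j ∈ fce D.S' (D.X.fc e), x j = x' j := fun j hj => hx j (mem_fce.1 hj)
        exact congrArg₂ _ (on_comp D.la_rK (h.fm F e k).on x x' hx') (h1 e x x' hx')
      · rfl
  · rintro v (i | e) hv
    · exact aff_coord _ _
    · simp only [P, Sum.elim_inr]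
      split_ifs with k
      · exact aff_add (D.la_rK.aff_comp ((h.fm F e k).lin v hv).aff) (h2 e v)
      · exact aff_const _ _

theorem Ok.la1 (c : Φ → E → ℝ) (F : Φ) : LA D.S' (xt D.S D.X) fun y => D.P F (D.ad c F y) y :=
  h.la_P F (D.on_ad c F) fun e v => D.aff_ad c F e _

theorem Ok.la0 (F : Φ) : LA D.S' (xt D.S D.X) (D.P F 0) :=
  h.la_P F (a := fun _ => 0) (fun _ _ _ _ => rfl) fun _ _ => aff_const _ _

theorem Ok.alt_shift (c : Φ → E → ℝ) (F : Φ) {A : Finset V} {θ : (ι ⊕ E → ℝ) → ℝ}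
    (hθ : ∀ v ∈ A, Aff ((xt D.S D.X).st v) θ)
    (ho : ∀ x x', (∀ i, (∀ e, i = Sum.inr e → D.X.fc e ⊆ D.fa F → D.X.fc e ⊆ A) → x i = x' i) →
      θ x = θ x') (y : ι ⊕ D.En → ℝ) :
    D.S'.alt A (fun y => θ (D.P F (D.ad c F y) y)) y = D.S'.alt A (fun y => θ (D.P F 0 y)) y := by
  rw [alt_comp (h.la1 c F) A hθ, alt_comp (h.la0 F) A hθ]
  refine alt_congr _ ho A ?_
  rintro (i | e) hi
  · rfl
  · simp only [la, P, Sum.elim_inr]
    split_ifs with k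
    · have : A ∩ (xt D.S D.X).fc (Sum.inr e) = D.X.fc e := inter_eq_right.2 (hi e rfl k)
      rw [this, alt_add, h.alt_ad]
      simp only [Pi.zero_apply, add_zero]
    · rfl

theorem Ok.on_g (e : E) : On (fce (xt D.S D.X) (D.X.fc e)) fun x => D.X.g x e := fun x x' hx =>
  h.o1.loc e x x' (fun i hi => hx _ (mem_fce.2 hi)) fun e' he _ => hx _ (mem_fce.2 he)

theorem Ok.on_ag (e : E) : On (fce (xt D.S D.X) (D.X.fc e)) (D.ag e) := fun _ _ hx =>
  alt_congr (· ∈ fce (xt D.S D.X) (D.X.fc e)) (h.on_g e) _ hx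

theorem Ok.alt_hh (c : Φ → E → ℝ) (F : Φ) (e : E) (y : ι ⊕ D.En → ℝ) :
    D.S'.alt (D.X.fc e) (D.hh c F e) y = 0 := by
  have a1 : ∀ v ∈ D.X.fc e, Aff ((xt D.S D.X).st v) fun x => D.X.g x e := fun v _ => h.o1.aff v e
  have a2 : ∀ v ∈ D.X.fc e, Lin ((xt D.S D.X).st v) (D.ag e) := fun v hv =>
    MS.lin_alt hv (a1 v hv)
  have e1 := h.alt_shift c F a1 (fun x x' hx => h.o1.loc e x x' (fun i _ => hx _ (by simp))
    fun e' he _ => hx _ fun _ k _ => Sum.inr.inj k ▸ he) y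
  refine (alt_sub _ y).trans ?_
  rw [e1, alt_comp (h.la0 F) _ a1, alt_comp (h.la0 F) _ fun v hv => (a2 v hv).aff,
    MS.alt_of_lin a2]
  exact sub_self _

theorem Ok.on_hh (c : Φ → E → ℝ) (F : Φ) (e : E) : On (fce D.S' (D.X.fc e)) (D.hh c F e) :=
  (on_comp (h.la1 c F) (h.on_g e)).map₂ (on_comp (h.la0 F) (h.on_ag e)) (· - ·)

theorem Ok.aff_hh (c : Φ → E → ℝ) (F : Φ) (e : E) (v : V) : Aff (D.S'.st v) (D.hh c F e) :=
  ((h.la1 c F).aff_comp (h.o1.aff v e)).sub ((h.la0 F).aff_comp (MS.aff_alt (h.o1.aff v e) _))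

theorem Ok.low_hh {c c' : Φ → E → ℝ} {F : Φ} {e : E}
    (hc : ∀ e', D.X.tr e' < D.X.tr e → c F e' = c' F e') (x x' : ι ⊕ D.En → ℝ)
    (hx : ∀ i, Sum.elim (fun _ => True) (fun k => (D.x0 0).tr k < D.τ + D.X.tr e) i →
      x i = x' i) : D.hh c F e x = D.hh c' F e x' := by
  have e1 : x ∘ Sum.inl = x' ∘ Sum.inl := funext fun i => hx _ trivial
  have e2 : D.rK x = D.rK x' := funext fun i => hx _ (by
    cases i with
    | inl i => trivial
    | inr k => exact (h.t2 k).trans_le (Nat.le_add_right _ _))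
  unfold hh
  congr 1
  · refine h.o1.loc e _ _ (fun i _ => congrFun e1 i) fun e' _ he => ?_
    simp only [P, Sum.elim_inr, e2, ad, hc e' he]
    congr 3
    refine sum_congr rfl fun B _ => ?_
    split_ifs
    · exact hx _ (Nat.add_lt_add_left he _)
    · rfl
  · simp only [P, e1, e2]

theorem Ok.low_gD {c c' : Φ → E → ℝ} {d : E × D.Ix}
    (hc : ∀ e', D.X.tr e' < D.X.tr d.1 → c d.2.1 e' = c' d.2.1 e') {x x' : ι ⊕ D.En → ℝ}
    (h1 : ∀ i, D.S.fc i ⊆ d.2.2.1 → x (Sum.inl i) = x' (Sum.inl i))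
    (h2 : ∀ k, (D.x0 0).fc k ⊆ d.2.2.1 → (D.x0 0).tr k < D.τ + D.X.tr d.1 →
      x (Sum.inr k) = x' (Sum.inr k)) : D.gD c x d = D.gD c' x' d := by
  unfold gD
  split_ifs
  · rw [show D.hh c d.2.1 d.1 = D.hh c' d.2.1 d.1 from
      funext fun y => h.low_hh hc y y fun _ _ => rfl]
    refine cmp_congr _ (h.low_hh fun _ _ => rfl) ?_
    rintro (i | k) a b
    exacts [h1 i b, h2 k b a]
  · rfl

theorem Ok.pd : (D.x0 0).G.PosDef :=
  posDef_blocks h.o1.pd (posDef_blocks h.o2.pd (P057EN.posDef_bd h.o1.pd))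

theorem Ok.ok (c : Φ → E → ℝ) : (D.X' c).Ok D.S := by
  refine ⟨?_, h.pd, ?_, ?_, ?_⟩
  · rintro (e | k | d)
    exacts [h.o1.ne e, h.o2.ne k, nonempty_iff_ne_empty.2 (mem_erase.1 d.2.2.2).1]
  · rintro (e | k | ⟨e, i⟩) (e' | k' | ⟨e', i'⟩) hG
    · exact h.o1.ort e e' hG
    · exact absurd rfl hG
    · exact absurd rfl hG
    · exact absurd rfl hG
    · exact h.o2.ort k k' hG
    · exact absurd rfl hG
    · exact absurd rfl hG
    · exact absurd rfl hG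
    · have a : blockDiagonal (fun _ => D.X.G) (e, i) (e', i') ≠ 0 := hG
      rw [blockDiagonal_apply] at a
      split_ifs at a with b
      · obtain rfl : i = i' := b
        exact ⟨rfl, congrArg (D.τ + ·) (h.o1.ort e e' a).2⟩
      · exact absurd rfl a
  · rintro (e | k | d) x x' h1 h2
    · exact h.o1.loc e _ _ h1 fun e' => h2 (Sum.inl e')
    · exact h.o2.loc k _ _ h1 fun k' => h2 (Sum.inr (Sum.inl k'))
    · exact h.low_gD (fun _ _ => rfl) h1 h2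
  · rintro v (e | k | d)
    · exact D.la_rE.aff_comp (h.o1.aff v e)
    · exact D.la_rK.aff_comp (h.o2.aff v k)
    · change Aff (D.S'.st v) fun y => D.gD c y d
      unfold gD
      split_ifs
      exacts [aff_cmp (h.aff_hh c _ _ v) _, aff_const _ _]

/-- the centres of the constants -/
def kc (D : Dt V ι E K Φ) (F : Φ) (a : E → ℝ) (e : E) : ℝ :=
  if D.X.fc e ⊆ D.fa F then
    D.X.g (Sum.elim 0 fun e => if D.X.fc e ⊆ D.fa F then a e else 0) e else 0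

theorem Ok.cmp_empty (c : Φ → E → ℝ) {F : Φ} {e : E} (he : D.X.fc e ⊆ D.fa F)
    (y : ι ⊕ D.En → ℝ) : cmp D.S' ∅ (D.hh c F e) y = D.kc F (c F) e := by
  have e1 : D.S'.kz (univ \ ∅) y = 0 := funext fun i => mix_pos _ _ (by
    have : (D.S'.fc i).Nonempty := by
      cases i with
      | inl i => exact h.ne i
      | inr k => exact (h.ok c).ne k
    obtain ⟨v, hv⟩ := this
    exact MS.mem_sts.2 ⟨v, by simp, hv⟩)
  have e2 : ∀ e, D.X.fc e ⊆ D.fa F → D.M F (D.rK 0) e = 0 := fun e k => by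
    obtain ⟨v, hv⟩ := h.o1.ne e
    have := ((h.fm F e k).lin v hv).zero 0
    rwa [mix_zero_zero] at this
  have e3 : D.P F 0 0 = 0 := by
    funext i
    rcases i with i | e
    · rfl
    · simp only [P, Sum.elim_inr, Pi.zero_apply, add_zero]
      split_ifs with k
      exacts [e2 e k, rfl]
  obtain ⟨v, hv⟩ := h.o1.ne e
  have e4 := (MS.lin_alt hv (h.o1.aff v e)).zero 0
  rw [mix_zero_zero] at e4
  rw [P057SY.cmp, MS.alt_empty, e1, hh, e3, ag, e4, sub_zero, kc, if_pos he]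
  congr 1
  funext i
  rcases i with i | e
  · rfl
  · simp only [P, Sum.elim_inr, ad, mu, Pi.zero_apply, ite_self, sum_const_zero, add_zero]
    split_ifs with k
    exacts [by rw [e2 e k, zero_add], rfl]

theorem Ok.pos (c : Φ → E → ℝ) {F : Φ} {e : E} (he : D.X.fc e ⊆ D.fa F) (y : ι ⊕ D.En → ℝ) :
    D.hh c F e y = D.kc F (c F) e +
      ∑ B : D.Bx F, if B.1 ⊂ D.X.fc e then D.gD c y (e, ⟨F, B⟩) else 0 := by
  have e1 : ∑ B : D.Bx F, (if B.1 ⊂ D.X.fc e then D.gD c y (e, ⟨F, B⟩) else 0) =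
      ∑ B ∈ (D.fa F).powerset.erase ∅,
        if B ⊂ D.X.fc e then cmp D.S' B (D.hh c F e) y else 0 := by
    refine Eq.trans (sum_congr rfl fun B _ => ?_) (sum_coe_sort _ fun B =>
      if B ⊂ D.X.fc e then cmp D.S' B (D.hh c F e) y else 0)
    split_ifs with k
    exacts [if_pos ⟨k, he⟩, rfl]
  have e2 : ((D.fa F).powerset.erase ∅).filter (· ⊂ D.X.fc e) =
      ((D.X.fc e).powerset.erase ∅).erase (D.X.fc e) := by
    ext B
    simp only [mem_filter, mem_erase, mem_powerset, Finset.ssubset_iff_subset_ne]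
    exact ⟨fun ⟨⟨a, _⟩, b, c⟩ => ⟨c, a, b⟩, fun ⟨c, a, b⟩ => ⟨⟨a, b.trans he⟩, b, c⟩⟩
  have e3 : cmp D.S' (D.X.fc e) (D.hh c F e) y = 0 := h.alt_hh c F e _
  rw [e1, ← sum_filter, e2, sum_erase (f := fun B => cmp D.S' B (D.hh c F e) y) _ e3, ← h.cmp_empty c he y,
    add_sum_erase _ (fun B => cmp D.S' B (D.hh c F e) y) (empty_mem_powerset _),
    sum_cmp (h.on_hh c F e)]

end Dt

end

end Vale.Agent.P057DE
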